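import Vale.Agent.P273.H562.AsyDefs
import Vale.Agent.P273.H975.FLim

/-!
# P273, LIM-PT: the dilated points of a generic point are eventually admissible
-/

set_option linter.unusedSectionVars false

noncomputable section

namespace Vale.Agent.P273.H422

open Set Filter H95 H732 H562 H975
open scoped Topology

/-! ### the sheets do not vanish -/

theorem csq_ne_zero {u : ℂ} (hu : ‖u‖ < 1) : csq (1 - u) ≠ 0 := by
  have h : (1 - u) ≠ 0 := by
    intro h
    have h1 : u = 1 := by linear_combination -h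
    rw [h1] at hu
    simp at hu
  unfold csq
  exact (Complex.cpow_ne_zero_iff_of_exponent_ne_zero (by norm_num)).2 h

theorem sht_core_ne {R : Region} {S : L → Bool} {p : R.Sp} (hp : p ∈ U0 R S) {j : L} {s : Bool}
    (h : R.pl j = Sum.inr s) : R.sht S p j ≠ 0 := by
  rw [sht_core R S p h]
  have hc := hp.2.2 j s h
  refine mul_ne_zero (by split_ifs <;> norm_num) ?_
  by_cases hS : S j = true
  · simp only [hS, if_true] at hc ⊢
    unfold gcw
    refine Finset.prod_ne_zero_iff.2 fun l _ => ?_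
    have h4 : 0 < ‖1 - ctr l * R.pos p j‖ ^ 2 := by
      have := (norm_nonneg _).trans_lt (hc l); linarith
    have h2 : 1 - ctr l * R.pos p j ≠ 0 := fun h0 => by simp [h0] at h4
    refine mul_ne_zero h2 (csq_ne_zero ?_)
    rw [norm_div, norm_pow, div_lt_one h4]
    have := hc l
    linarith
  · simp only [hS, Bool.false_eq_true, if_false] at hc ⊢
    unfold gc
    refine Finset.prod_ne_zero_iff.2 fun l _ => ?_
    have h4 : 0 < ‖R.pos p j - ctr l‖ ^ 2 := by
      have := (norm_nonneg _).trans_lt (hc l); linarith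
    have h2 : R.pos p j - ctr l ≠ 0 := fun h0 => by simp [h0] at h4
    refine mul_ne_zero h2 (csq_ne_zero ?_)
    rw [norm_div, norm_pow, div_lt_one h4]
    have := hc l
    linarith

theorem sht_neck_ne {R : Region} {S : L → Bool} {p : R.Sp} (hp : p ∈ U0 R S) {j : L} {k : Fin 3}
    (h : R.pl j = Sum.inl k) (hXY : R.XX p k (R.rk j) ≠ R.YY p k (R.rk j)) :
    R.sht S p j ≠ 0 := by
  rw [sht_neck R S p h]
  refine div_ne_zero (mul_ne_zero ?_ (sub_ne_zero.2 hXY)) two_ne_zero
  unfold gk
  refine Finset.prod_ne_zero_iff.2 fun l _ => ?_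
  by_cases hl : l = k
  · rw [if_pos hl]; exact one_ne_zero
  · rw [if_neg hl]
    have h1 := neck_far hp h hl
    have h2 : R.pos p j - ctr l ≠ 0 := fun h0 => by rw [h0] at h1; norm_num at h1
    refine mul_ne_zero h2 (csq_ne_zero ?_)
    rw [norm_div, norm_pow, div_lt_one (by positivity)]
    have := hp.1 l
    nlinarith

/-! ### sizes at the dilated points -/

section Dil

variable (R : H95.Region) (m : ∀ k, Fin (R.n k + 1))

open Classical in
/-- the bounded part of the size of a gap at the dilated points -/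
def off (B : Set (W R m).Fr) (p : Co R m) (g : Σ k, Fin (R.n k + 1)) : ℝ :=
  if h : g ≠ (W R m).last ((W R m).nk g) then (if (⟨g, h⟩ : (W R m).Fr) ∈ B then 0 else p.1 ⟨g, h⟩)
  else -∑ f : (W R m).Fr, if f ∉ B ∧ (W R m).nk f.1 = (W R m).nk g then p.1 f else 0

open Classical in
theorem sum_and_comm (B : Set (W R m).Fr) (p : Co R m) (k : Fin 3) :
    (∑ f : (W R m).Fr, if (W R m).nk f.1 = k ∧ f ∈ B then p.1 f else 0) =
      ∑ f : (W R m).Fr, if f ∈ B ∧ (W R m).nk f.1 = k then p.1 f else 0 :=
  Finset.sum_congr rfl fun f _ => by simp only [and_comm]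

/-- sizes at the dilated points -/
theorem ug_dpt (B : Set (W R m).Fr) (N : ℝ) (p : Co R m) (g : Σ k, Fin (R.n k + 1)) :
    (W R m).ug ((W R m).dpt B N p) g = N * szl R m B p g + off R m B p g := by
  classical
  by_cases h : g ≠ (W R m).last ((W R m).nk g)
  · unfold Reg.ug szl off
    rw [dif_pos h, dif_pos h, dif_pos h]
    simp only [Reg.dpt]
    by_cases hB : (⟨g, h⟩ : (W R m).Fr) ∈ B
    · simp only [if_pos hB]; ring
    · simp only [if_neg hB]; ring
  · unfold Reg.ug szl off
    rw [dif_neg h, dif_neg h, dif_neg h, Reg.ul_dpt, sum_and_comm]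
    ring

/-- depth at the dilated points -/
theorem dep_dpt (B : Set (W R m).Fr) (N : ℝ) (p : Co R m) {j : L} {k : Fin 3}
    (h : R.pl j = Sum.inl k) :
    wreg.dep m ((W R m).dpt B N p) k (rkF R h) =
      N * depl R m B p h + ∑ g ∈ wreg.bef R.n k (rkF R h), off R m B p g := by
  have h1 : wreg.dep m ((W R m).dpt B N p) k (rkF R h) =
      ∑ g ∈ wreg.bef R.n k (rkF R h), (W R m).ug ((W R m).dpt B N p) g := by
    rw [wreg.bef, Finset.sum_map, Finset.sum_filter]
    rfl
  rw [h1, depl, Finset.mul_sum, ← Finset.sum_add_distrib]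
  exact Finset.sum_congr rfl fun g _ => ug_dpt R m B N p g

end Dil

theorem eventually_affine_ne {a : ℝ} (ha : a ≠ 0) (b : ℝ) : ∀ᶠ N : ℝ in atTop, N * a + b ≠ 0 := by
  filter_upwards [eventually_ne_atTop (-b / a)] with N hN h
  apply hN
  field_simp
  linarith

/-- **the dilated points of a generic point are eventually admissible** -/
theorem gen_adm (R : H95.Region) (m : ∀ k, Fin (R.n k + 1)) (S : L → Bool)
    (_hS : FarOk R S) (B : Set (W R m).Fr) (p : Co R m) (hp : Gen R m S B p)
    (hy : ∀ k, 0 < p.2.2.1 k) (N₀ : ℝ) :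
    ∀ᶠ N : ℝ in atTop, Adm R m S N₀ ((W R m).dpt B N p) := by
  classical
  obtain ⟨h1, h2, h3, h4, h5, h6⟩ := hp
  have hI : InrB (W R m) B p := by
    intro f hf
    have h := h3 f hf
    unfold szl at h
    rw [dif_neg (by rw [(W R m).nk_last]; simp), (W R m).nk_last, sum_and_comm] at h
    exact h
  have e1 := eventually_inr_dpt (W R m) h1 hI fun f hf => (h2 f hf).le
  have e2 : ∀ M : ℝ, ∀ᶠ N : ℝ in atTop, ∀ k, M ≤ ((W R m).dpt B N p).2.2.1 k := by
    intro M
    rw [eventually_all]
    intro k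
    have h : Tendsto (fun N : ℝ => N * p.2.2.1 k) atTop atTop :=
      tendsto_id.atTop_mul_const (hy k)
    exact h.eventually_ge_atTop M
  have e3 : ∀ᶠ N : ℝ in atTop, ∀ (j : L) (k : Fin 3) (h : R.pl j = Sum.inl k),
      N * (2 * depl R m B p h - p.2.2.1 k) +
        2 * ∑ g ∈ wreg.bef R.n k (rkF R h), off R m B p g ≠ 0 := by
    rw [eventually_all]; intro j
    rw [eventually_all]; intro k
    by_cases h : R.pl j = Sum.inl k
    · filter_upwards [eventually_affine_ne (sub_ne_zero.2 (h6 j k h))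
        (2 * ∑ g ∈ wreg.bef R.n k (rkF R h), off R m B p g)] with N hN h'
      exact hN
    · exact Eventually.of_forall fun N h' => absurd h' h
  filter_upwards [e1, e2 N₀, e2 5, e3] with N a1 a2 a3 a4
  refine ⟨a1, a2, h4, h5, fun j => ?_⟩
  have hy1 : Real.exp (-5) < 1 / 64 := by
    rw [Real.exp_neg, one_div]
    refine inv_strictAnti₀ (by norm_num) ?_
    have h := Real.exp_one_gt_d9
    calc (64 : ℝ) < 2.7 ^ 5 := by norm_num
      _ ≤ Real.exp 1 ^ 5 := by gcongr; linarith
      _ = Real.exp 5 := by rw [← Real.exp_nat_mul]; norm_num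
  have hU : emb R m ((W R m).dpt B N p) ∈ U0 R S := by
    refine scl_mem_U0 (y0 := 5) (K0 := zone R S (1 / 64) 11) (by linarith)
      (zoneOK le_rfl (by linarith) (by linarith) (by norm_num)) ?_
    exact psi_mem_CR m a1 (by norm_num) a3 h5
  unfold shE
  rcases hj : R.pl j with k | s
  · refine sht_neck_ne hU hj ?_
    intro hXY
    have hX : R.XX (emb R m ((W R m).dpt B N p)) k (R.rk j) =
      1 / 16 * Complex.exp (wreg.LX R.Cm R.n m k (rkF R hj) ((W R m).dpt B N p)) :=
      XX_scl_psi R m _ k (rkF R hj)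
    have hY : R.YY (emb R m ((W R m).dpt B N p)) k (R.rk j) =
      1 / 16 * Complex.exp (wreg.LY R.Cm R.n m k (rkF R hj) ((W R m).dpt B N p)) :=
      YY_scl_psi R m _ k (rkF R hj)
    rw [hX, hY] at hXY
    have h7 : Complex.exp (wreg.LX R.Cm R.n m k (rkF R hj) ((W R m).dpt B N p)) =
        Complex.exp (wreg.LY R.Cm R.n m k (rkF R hj) ((W R m).dpt B N p)) :=
      mul_left_cancel₀ (by norm_num) hXY
    have h8 := congrArg norm h7
    rw [Complex.norm_exp, Complex.norm_exp, Real.exp_eq_exp, wreg.LX_eq, wreg.LY_eq] at h8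
    simp only [Complex.add_re, Complex.neg_re, Complex.ofReal_re, Complex.mul_re,
      Complex.I_re, Complex.I_im, Complex.ofReal_im, mul_zero, mul_one, sub_zero, add_zero,
      neg_inj] at h8
    rw [dep_dpt] at h8
    have h9 : ((W R m).dpt B N p).2.2.1 k = N * p.2.2.1 k := rfl
    rw [h9] at h8
    apply a4 j k hj
    linarith
  · exact sht_core_ne hU hj

end Vale.Agent.P273.H422
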