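import Vale.Agent.P273.H573.Skel
import Vale.Agent.P273.H254.Det

/-!
# P273, LIM-PT: the graded part of the multilinear form on pure arguments
-/

noncomputable section

namespace Vale.Agent.P273.H422

open H95 H573 Finset

theorem pA_add_pM (x : H4) : pA x + pM x = x := by
  funext i
  fin_cases i <;> simp [pA, pM]

theorem pA_eq_of_pM {x : H4} (h : pM x = 0) : pA x = x := by
  have := pA_add_pM x
  rwa [h, add_zero] at this

theorem pM_eq_of_pA {x : H4} (h : pA x = 0) : pM x = x := by
  have := pA_add_pM x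
  rwa [h, zero_add] at this

theorem grT_apply (n : ℕ) (T : MT) (x : Fin 14 → H4) :
    grT n T x = ∑ τ ∈ (univ : Finset (Finset (Fin 14))).filter (fun τ => τ.card = n),
      T fun j => (if j ∈ τ then pA else pM) (x j) := by
  rw [grT, _root_.sum_apply]
  rfl

/-- **the graded part on pure arguments** -/
theorem grT_pure {n : ℕ} (T : MT) {x : Fin 14 → H4} {A : Finset (Fin 14)} (hA : A.card = n)
    (h1 : ∀ j ∈ A, pM (x j) = 0) (h2 : ∀ j ∉ A, pA (x j) = 0) : grT n T x = T x := by
  classical
  rw [grT_apply, Finset.sum_eq_single A]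
  · congr 1
    funext j
    by_cases hj : j ∈ A
    · rw [if_pos hj]; exact pA_eq_of_pM (h1 j hj)
    · rw [if_neg hj]; exact pM_eq_of_pA (h2 j hj)
  · intro τ hτ hne
    have hc : τ.card = n := (Finset.mem_filter.1 hτ).2
    obtain ⟨j, hj, hjA⟩ : ∃ j ∈ τ, j ∉ A := by
      by_contra hcon
      push Not at hcon
      exact hne (Finset.eq_of_subset_of_card_le hcon (by rw [hA, hc]))
    refine T.map_coord_zero j ?_
    change (if j ∈ τ then pA else pM) (x j) = 0
    rw [if_pos hj]
    exact h2 j hjA
  · intro h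
    refine absurd ?_ h
    exact Finset.mem_filter.2 ⟨Finset.mem_univ _, hA⟩

/-- **the graded part in 254's sum**: pure values, `A` = directions with values on `f1, f2` -/
theorem DT_grT {n : ℕ} (T : MT) {δ : Type*} (t : Fin 14 → δ → H4) (e : Fin 14 → δ)
    {A : Finset (Fin 14)} (hA : A.card = n) (h1 : ∀ j, ∀ i ∈ A, pM (t j (e i)) = 0)
    (h2 : ∀ j, ∀ i ∉ A, pA (t j (e i)) = 0) :
    H254.DT (fun x => grT n T x) t e = H254.DT (fun x => T x) t e := by
  classical
  unfold H254.DT
  refine Finset.sum_congr rfl fun π _ => ?_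
  congr 1
  refine grT_pure T (A := A.image π.symm) ?_ ?_ ?_
  · rw [Finset.card_image_of_injective _ π.symm.injective, hA]
  · intro j hj
    obtain ⟨i, hi, rfl⟩ := Finset.mem_image.1 hj
    rw [Equiv.apply_symm_apply]
    exact h1 _ i hi
  · intro j hj
    refine h2 _ _ fun hi => hj ?_
    exact Finset.mem_image.2 ⟨π j, hi, by simp⟩

/-- the components on `f1, f2` -/
def smA : Finset (Fin 4) := {1, 3}

/-- the basis vectors -/
def bv (i : Fin 4) : H4 := Pi.single i 1

theorem sum_bv (x : H4) : x = ∑ i, x i • bv i := by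
  funext j
  simp [bv, Finset.sum_apply, Pi.single_apply]

theorem pA_bv {i : Fin 4} (h : i ∉ smA) : pA (bv i) = 0 := by
  funext j
  fin_cases i <;> fin_cases j <;> simp_all [smA, pA, bv]

/-- **the weight condition on the basis vectors** -/
theorem wt_basis {T : MT} {n q : ℕ} (hT : WtT n T) (hn : n + q = 15) (τ : Fin 14 → Fin 4)
    (hτ : (univ.filter fun j => τ j ∈ smA).card < q) : T (fun j => bv (τ j)) = 0 := by
  refine hT _ ?_
  have h1 : (univ.filter fun j => τ j ∈ smA).card +
      (univ.filter fun j => ¬ τ j ∈ smA).card = 14 := by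
    rw [Finset.card_filter_add_card_filter_not]
    simp
  have h2 : (univ.filter fun j => ¬ τ j ∈ smA).card ≤
      (univ.filter fun j => pA (bv (τ j)) = 0).card := by
    refine Finset.card_le_card fun j hj => ?_
    exact Finset.mem_filter.2 ⟨Finset.mem_univ _, pA_bv (Finset.mem_filter.1 hj).2⟩
  omega

end Vale.Agent.P273.H422
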