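import Vale.Agent.P273.H261.PtDefs

/-!
# P273, LIM-PT: the limit legs of helper562 against the limit forms `thL` of helper573
-/

set_option linter.unusedSectionVars false
set_option linter.unusedSimpArgs false

noncomputable section

namespace Vale.Agent.P273.H422

open H681 H95 H732 H973 H562 H573 H261

section Alg

variable (κ : Fin 3 → Fin 3 → ℝ) {R : Region} {m : ∀ k, Fin (R.n k + 1)}

/-! ### the large gaps before a mark -/

theorem mem_bef_iff {k : Fin 3} {i : Fin (R.n k)} {g : R.Gap} :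
    g ∈ wreg.bef R.n k i ↔ g.1 = k ∧ (g.2 : ℕ) ≤ i := by
  rw [wreg.mem_bef]
  constructor
  · rintro ⟨j, hj, rfl⟩
    exact ⟨rfl, hj⟩
  · rintro ⟨h1, h2⟩
    obtain ⟨k', j⟩ := g
    have h1' : k' = k := h1
    subst h1'
    exact ⟨j, h2, rfl⟩

theorem cmp_inr {B : Finset R.Gap} {j : L} {k : Fin 3} {c : ℕ}
    (h : cmp R B j = Sum.inr (k, c)) : R.pl j = Sum.inl k ∧ cntG R B k (R.rk j) = c := by
  unfold H573.cmp at h
  rcases hj : R.pl j with l | b
  · rw [hj] at h
    simp only at h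
    split_ifs at h
    have h1 := Sum.inr.inj h
    have h2 : l = k := congrArg Prod.fst h1
    subst h2
    exact ⟨rfl, congrArg Prod.snd h1⟩
  · rw [hj] at h
    cases h

theorem cmp_inl_neck {B : Finset R.Gap} {j : L} {k : Fin 3} {s : Bool}
    (h : cmp R B j = Sum.inl s) (hk : R.pl j = Sum.inl k) :
    (s = false ∧ cntG R B k (R.rk j) = 0) ∨ (s = true ∧ cntG R B k (R.rk j) = crd R B k) := by
  unfold H573.cmp at h
  rw [hk] at h
  simp only at h
  split_ifs at h with h1 h2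
  · exact Or.inl ⟨(Sum.inl.inj h).symm, h1⟩
  · exact Or.inr ⟨(Sum.inl.inj h).symm, h2⟩

theorem cmp_inl_core {B : Finset R.Gap} {j : L} {b s : Bool}
    (h : cmp R B j = Sum.inl s) (hk : R.pl j = Sum.inr b) : b = s := by
  unfold H573.cmp at h
  rw [hk] at h
  exact Sum.inl.inj h

theorem same_le {B : Finset R.Gap} {k : Fin 3} {i i' : ℕ} (h : cntG R B k i = cntG R B k i')
    {g : R.Gap} (hg : g ∈ B) (hk : g.1 = k) : (g.2 : ℕ) ≤ i ↔ (g.2 : ℕ) ≤ i' := by
  have key : ∀ a b : ℕ, a ≤ b → cntG R B k a = cntG R B k b → (g.2 : ℕ) ≤ b → (g.2 : ℕ) ≤ a := by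
    intro a b hab hc hb
    have hsub : (B.filter fun g => g.1 = k ∧ (g.2 : ℕ) ≤ a) ⊆
        B.filter fun g => g.1 = k ∧ (g.2 : ℕ) ≤ b := by
      intro x hx
      rw [Finset.mem_filter] at hx ⊢
      exact ⟨hx.1, hx.2.1, hx.2.2.trans hab⟩
    have heq := Finset.eq_of_subset_of_card_le hsub (le_of_eq hc.symm)
    have h1 : g ∈ B.filter fun g => g.1 = k ∧ (g.2 : ℕ) ≤ b :=
      Finset.mem_filter.2 ⟨hg, hk, hb⟩
    rw [← heq] at h1
    exact (Finset.mem_filter.1 h1).2.2
  rcases le_total i i' with h1 | h1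
  · exact ⟨fun h2 => h2.trans h1, key i i' h1 h⟩
  · exact ⟨key i' i h1 h.symm, fun h2 => h2.trans h1⟩

theorem not_le_of_cnt {B : Finset R.Gap} {k : Fin 3} {i : ℕ} (h : cntG R B k i = 0)
    {g : R.Gap} (hg : g ∈ B) (hk : g.1 = k) : ¬ (g.2 : ℕ) ≤ i := by
  intro h1
  have h2 : g ∈ B.filter fun g => g.1 = k ∧ (g.2 : ℕ) ≤ i := Finset.mem_filter.2 ⟨hg, hk, h1⟩
  rw [cntG, Finset.card_eq_zero] at h
  rw [h] at h2
  exact absurd h2 (Finset.notMem_empty _)

theorem le_of_cnt {B : Finset R.Gap} {k : Fin 3} {i : ℕ} (h : cntG R B k i = crd R B k)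
    {g : R.Gap} (hg : g ∈ B) (hk : g.1 = k) : (g.2 : ℕ) ≤ i := by
  have hsub : (B.filter fun g => g.1 = k ∧ (g.2 : ℕ) ≤ i) ⊆ B.filter fun g => g.1 = k := by
    intro x hx
    rw [Finset.mem_filter] at hx ⊢
    exact ⟨hx.1, hx.2.1⟩
  have heq := Finset.eq_of_subset_of_card_le hsub (le_of_eq h.symm)
  have h1 : g ∈ B.filter fun g => g.1 = k := Finset.mem_filter.2 ⟨hg, hk⟩
  rw [← heq] at h1
  exact (Finset.mem_filter.1 h1).2.2

variable {B : Finset (W R m).Fr} {p : Co R m}

theorem last_big (k : Fin 3) : (W R m).last k ∈ big R m B :=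
  Finset.mem_union_right _ (Finset.mem_image_of_mem _ (Finset.mem_univ k))

theorem free_big {f : (W R m).Fr} (hf : f ∈ B) : f.1 ∈ big R m B :=
  Finset.mem_union_left _ (Finset.mem_map.2 ⟨f, hf, rfl⟩)

theorem szl_zero {g : R.Gap} (hg : g ∉ big R m B) : szl R m (↑B) p g = 0 := by
  classical
  unfold szl
  by_cases h : g ≠ (W R m).last ((W R m).nk g)
  · rw [dif_pos h, if_neg]
    intro h1
    exact hg (free_big (f := ⟨g, h⟩) (Finset.mem_coe.1 h1))
  · exfalso
    apply hg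
    rw [not_not.1 h]
    exact last_big _

/-- the sum of the limit sizes over a neck -/
theorem sum_szl (k : Fin 3) :
    (∑ g : R.Gap, if (W R m).nk g = k then szl R m (↑B) p g else 0) = p.2.2.1 k := by
  classical
  rw [(W R m).sum_neck]
  have h1 : szl R m (↑B) p ((W R m).last k) = p.2.2.1 k -
      ∑ f : (W R m).Fr, if (W R m).nk f.1 = k ∧ f ∈ (B : Set (W R m).Fr) then p.1 f else 0 := by
    unfold szl
    rw [dif_neg (by rw [(W R m).nk_last]; simp), (W R m).nk_last]
    congr!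
  have h2 : (∑ f : (W R m).Fr, if (W R m).nk f.1 = k then szl R m (↑B) p f.1 else 0) =
      ∑ f : (W R m).Fr, if (W R m).nk f.1 = k ∧ f ∈ (B : Set (W R m).Fr) then p.1 f else 0 := by
    refine Finset.sum_congr rfl fun f _ => ?_
    by_cases hk : (W R m).nk f.1 = k
    · have h3 : szl R m (↑B) p f.1 = if f ∈ (B : Set (W R m).Fr) then p.1 f else 0 := by
        unfold szl
        rw [dif_pos f.2]
        congr!
      rw [if_pos hk, h3]
      by_cases hB : f ∈ (B : Set (W R m).Fr)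
      · rw [if_pos hB, if_pos ⟨hk, hB⟩]
      · rw [if_neg hB, if_neg fun h => hB h.2]
    · rw [if_neg hk, if_neg fun h => hk h.1]
  rw [h1, h2]
  ring

/-! ### depths -/

theorem depl_same {j j' : L} {k : Fin 3} (h : R.pl j = Sum.inl k) (h' : R.pl j' = Sum.inl k)
    (hc : cntG R (big R m B) k (R.rk j) = cntG R (big R m B) k (R.rk j')) :
    depl R m (↑B) p h = depl R m (↑B) p h' := by
  classical
  have e : ∀ S : Finset R.Gap, (∑ g ∈ S, szl R m (↑B) p g) =
      ∑ g : R.Gap, if g ∈ S then szl R m (↑B) p g else 0 := by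
    intro S
    rw [Finset.sum_ite_mem, Finset.univ_inter]
  unfold depl
  rw [e, e]
  refine Finset.sum_congr rfl fun g _ => ?_
  by_cases hg : g ∈ big R m B
  · have h1 : g ∈ wreg.bef R.n k (rkF R h) ↔ g ∈ wreg.bef R.n k (rkF R h') := by
      rw [mem_bef_iff, mem_bef_iff]
      constructor
      · rintro ⟨a, b⟩
        exact ⟨a, (same_le hc hg a).1 b⟩
      · rintro ⟨a, b⟩
        exact ⟨a, (same_le hc hg a).2 b⟩
    simp only [h1]
  · rw [szl_zero hg]
    simp

theorem depl_none {j : L} {k : Fin 3} (h : R.pl j = Sum.inl k)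
    (hc : cntG R (big R m B) k (R.rk j) = 0) : depl R m (↑B) p h = 0 := by
  unfold depl
  refine Finset.sum_eq_zero fun g hg => szl_zero fun hb => ?_
  obtain ⟨a, b⟩ := mem_bef_iff.1 hg
  exact not_le_of_cnt hc hb a b

theorem depl_full {j : L} {k : Fin 3} (h : R.pl j = Sum.inl k)
    (hc : cntG R (big R m B) k (R.rk j) = crd R (big R m B) k) :
    depl R m (↑B) p h = p.2.2.1 k := by
  classical
  rw [← sum_szl (m := m) (B := B) (p := p) k, depl]
  have e : ∀ S : Finset R.Gap, (∑ g ∈ S, szl R m (↑B) p g) =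
      ∑ g : R.Gap, if g ∈ S then szl R m (↑B) p g else 0 := by
    intro S
    rw [Finset.sum_ite_mem, Finset.univ_inter]
  rw [e]
  refine Finset.sum_congr rfl fun g _ => ?_
  by_cases hg : g ∈ big R m B
  · have h1 : g ∈ wreg.bef R.n k (rkF R h) ↔ (W R m).nk g = k := by
      rw [mem_bef_iff]
      constructor
      · rintro ⟨a, -⟩
        exact a
      · intro a
        exact ⟨a, le_of_cnt hc hg a⟩
    simp only [h1]
  · rw [szl_zero hg]
    simp

/-! ### the logarithm on the coordinate vectors -/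

theorem LX_u (k : Fin 3) (i : Fin (R.n k)) (f : (W R m).Fr) :
    wreg.LX R.Cm R.n m k i ((W R m).vec (.u f)) =
      (if (W R m).last ((W R m).nk f.1) ∈ wreg.bef R.n k i then 1 else 0) -
        (if f.1 ∈ wreg.bef R.n k i then 1 else 0) := (W R m).lS_vec_u _ f

theorem LX_ph (k : Fin 3) (i : Fin (R.n k)) (f : (W R m).Fr) :
    wreg.LX R.Cm R.n m k i ((W R m).vec (.ph f)) =
      ((if f.1 ∈ wreg.bef R.n k i then 1 else 0) -
        (if (W R m).last ((W R m).nk f.1) ∈ wreg.bef R.n k i then 1 else 0)) * Complex.I :=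
  (W R m).lS_vec_ph _ f

theorem LX_y (k : Fin 3) (i : Fin (R.n k)) (l : Fin 3) :
    wreg.LX R.Cm R.n m k i ((W R m).vec (.y l)) =
      -(if (W R m).last l ∈ wreg.bef R.n k i then 1 else 0) := (W R m).lS_vec_y _ l

theorem LX_al (k : Fin 3) (i : Fin (R.n k)) (l : Fin 3) :
    wreg.LX R.Cm R.n m k i ((W R m).vec (.al l)) =
      (if (W R m).last l ∈ wreg.bef R.n k i then 1 else 0) * Complex.I := (W R m).lS_vec_al _ l

theorem LX_u_im (k : Fin 3) (i : Fin (R.n k)) (f : (W R m).Fr) :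
    (wreg.LX R.Cm R.n m k i ((W R m).vec (.u f))).im = 0 := by
  rw [LX_u]; split_ifs <;> simp

theorem LX_ph_re (k : Fin 3) (i : Fin (R.n k)) (f : (W R m).Fr) :
    (wreg.LX R.Cm R.n m k i ((W R m).vec (.ph f))).re = 0 := by
  rw [LX_ph]; split_ifs <;> simp

theorem LX_y_im (k : Fin 3) (i : Fin (R.n k)) (l : Fin 3) :
    (wreg.LX R.Cm R.n m k i ((W R m).vec (.y l))).im = 0 := by
  rw [LX_y]; split_ifs <;> simp

theorem LX_al_re (k : Fin 3) (i : Fin (R.n k)) (l : Fin 3) :
    (wreg.LX R.Cm R.n m k i ((W R m).vec (.al l))).re = 0 := by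
  rw [LX_al]; split_ifs <;> simp

section Same

variable {j j' : L} {k : Fin 3} (h : R.pl j = Sum.inl k) (h' : R.pl j' = Sum.inl k)
  (hc : cntG R (big R m B) k (R.rk j) = cntG R (big R m B) k (R.rk j'))

include hc in
theorem mem_same {g : R.Gap} (hg : g ∈ big R m B) :
    g ∈ wreg.bef R.n k (rkF R h) ↔ g ∈ wreg.bef R.n k (rkF R h') := by
  rw [mem_bef_iff, mem_bef_iff]
  constructor
  · rintro ⟨a, b⟩
    exact ⟨a, (same_le hc hg a).1 b⟩
  · rintro ⟨a, b⟩
    exact ⟨a, (same_le hc hg a).2 b⟩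

include hc in
theorem LX_u_same {f : (W R m).Fr} (hf : f ∈ B) :
    wreg.LX R.Cm R.n m k (rkF R h) ((W R m).vec (.u f)) =
      wreg.LX R.Cm R.n m k (rkF R h') ((W R m).vec (.u f)) := by
  rw [LX_u, LX_u]
  simp only [mem_same h h' hc (free_big hf), mem_same h h' hc (last_big _)]

include hc in
theorem LX_ph_same {f : (W R m).Fr} (hf : f ∈ B) :
    wreg.LX R.Cm R.n m k (rkF R h) ((W R m).vec (.ph f)) =
      wreg.LX R.Cm R.n m k (rkF R h') ((W R m).vec (.ph f)) := by
  rw [LX_ph, LX_ph]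
  simp only [mem_same h h' hc (free_big hf), mem_same h h' hc (last_big _)]

include hc in
theorem LX_y_same (l : Fin 3) :
    wreg.LX R.Cm R.n m k (rkF R h) ((W R m).vec (.y l)) =
      wreg.LX R.Cm R.n m k (rkF R h') ((W R m).vec (.y l)) := by
  rw [LX_y, LX_y]
  simp only [mem_same h h' hc (last_big _)]

include hc in
theorem LX_al_same (l : Fin 3) :
    wreg.LX R.Cm R.n m k (rkF R h) ((W R m).vec (.al l)) =
      wreg.LX R.Cm R.n m k (rkF R h') ((W R m).vec (.al l)) := by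
  rw [LX_al, LX_al]
  simp only [mem_same h h' hc (last_big _)]

end Same

/-- **(1)** two marks of the same free component have the same limit legs -/
theorem bb {j j' : L} {k : Fin 3} {c : ℕ} (h : cmp R (big R m B) j = Sum.inr (k, c))
    (h' : cmp R (big R m B) j' = Sum.inr (k, c)) (ξ : Fin 6 → ℝ) {d : BDir R m}
    (hd : d.ok R m (↑B)) : lgl κ R m B p j ξ d = lgl κ R m B p j' ξ d := by
  obtain ⟨hk, hj⟩ := cmp_inr h
  obtain ⟨hk', hj'⟩ := cmp_inr h'
  have hc : cntG R (big R m B) k (R.rk j) = cntG R (big R m B) k (R.rk j') := hj.trans hj'.symm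
  rw [lgl_neck κ R m B p hk, lgl_neck κ R m B p hk', depl_same hk hk' hc]
  cases d with
  | u f =>
    simp only [legN]
    rw [LX_u_same hk hk' hc (Finset.mem_coe.1 hd)]
  | ph f =>
    simp only [legN]
    rw [LX_ph_same hk hk' hc (Finset.mem_coe.1 hd)]
  | al l =>
    simp only [legN]
    rw [LX_al_same hk hk' hc]
  | eul l => rfl

/-! ### the limit forms -/

theorem thL_free {B : Finset R.Gap} {y : Fin 3 → ℝ} {j : L} {x : Fin 3 × ℕ} {k : Fin 3}
    (h : cmp R B j = Sum.inr x) (hk : R.pl j = Sum.inl k) (v : Co R m) :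
    thL R m B y j v =
      (-(wreg.LX R.Cm R.n m k (rkF R hk) v).re) • ((2 / y k) • pA (H25.tt k - lamV y)) +
        (wreg.LX R.Cm R.n m k (rkF R hk) v).im • ((1 / Real.pi) • H25.mm k) := by
  unfold thL
  rw [h]
  simp only
  split
  · rename_i k' h'
    have hk' : k' = k := by rw [hk] at h'; exact (Sum.inl.inj h').symm
    subst hk'
    rfl
  · rename_i b h'
    rw [hk] at h'
    cases h'

theorem thL_core {B : Finset R.Gap} {y : Fin 3 → ℝ} {j : L} {s : Bool}
    (h : cmp R B j = Sum.inl s) (v : Co R m) :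
    thL R m B y j v = (if s then (-1 : ℝ) else 1) • ∑ l : Fin 3, v.2.2.1 l • dlY y l +
      (if s then (-1 : ℝ) else 1) • ∑ l : Fin 3, v.2.2.2.1 l • dlA y l := by
  unfold thL
  rw [h]
  simp only [_root_.add_apply, _root_.smul_apply, _root_.sum_apply]
  rfl

/-! the numbers -/

theorem tt_one (k : Fin 3) : H25.tt k 1 = xe (col4 1) k := by
  fin_cases k <;> simp [H25.tt, xe, col4]

theorem tt_three (k : Fin 3) : H25.tt k 3 = xe (col4 3) k := by
  fin_cases k <;> simp [H25.tt, xe, col4]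

theorem tt_zero (k : Fin 3) : H25.tt k 0 = 0 := by
  fin_cases k <;> simp [H25.tt]

theorem tt_two (k : Fin 3) : H25.tt k 2 = 0 := by
  fin_cases k <;> simp [H25.tt]

theorem mm_apply (k : Fin 3) (a : Fin 4) : H25.mm k a = -bt (col4 a) k := by
  fin_cases k <;> fin_cases a <;> simp [H25.mm, bt, col4]

theorem bt_one (k : Fin 3) : bt (col4 1) k = 0 := by
  fin_cases k <;> simp [bt, col4]

theorem bt_three (k : Fin 3) : bt (col4 3) k = 0 := by
  fin_cases k <;> simp [bt, col4]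

/-- the classes on `f1`, `f2` -/
theorem bt_odd {a : Fin 4} (ha : a = 1 ∨ a = 3) (k : Fin 3) : bt (col4 a) k = 0 := by
  rcases ha with rfl | rfl
  · exact bt_one k
  · exact bt_three k

theorem tt_odd {a : Fin 4} (ha : a = 1 ∨ a = 3) (k : Fin 3) : H25.tt k a = xe (col4 a) k := by
  rcases ha with rfl | rfl
  · exact tt_one k
  · exact tt_three k

theorem tt_even {a : Fin 4} (ha : a = 0 ∨ a = 2) (k : Fin 3) : H25.tt k a = 0 := by
  rcases ha with rfl | rfl
  · exact tt_zero k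
  · exact tt_two k

theorem gg_odd {a : Fin 4} (ha : a = 1 ∨ a = 3) (α : Fin 3 → ℝ) (k : Fin 3) :
    gg κ (col4 a) α k = H25.tt k a := by
  unfold gg
  simp only [bt_odd ha, tt_odd ha]
  simp

theorem lamV_apply (y : Fin 3 → ℝ) (a : Fin 4) :
    lamV y a = (∑ k, 1 / y k)⁻¹ * ∑ k, (1 / y k) * H25.tt k a := by
  unfold lamV
  rw [Pi.smul_apply, Finset.sum_apply]
  rfl

theorem lam_odd {a : Fin 4} (ha : a = 1 ∨ a = 3) (y α : Fin 3 → ℝ) :
    lam κ (col4 a) y α = lamV y a := by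
  unfold lam
  rw [lamV_apply, div_eq_inv_mul]
  congr 1
  refine Finset.sum_congr rfl fun k _ => ?_
  rw [gg_odd κ ha]
  ring

theorem lamV_even {a : Fin 4} (ha : a = 0 ∨ a = 2) (y : Fin 3 → ℝ) : lamV y a = 0 := by
  rw [lamV_apply]
  simp [tt_even ha]

theorem pA_odd {a : Fin 4} (ha : a = 1 ∨ a = 3) (x : H4) : pA x a = x a := by
  rcases ha with rfl | rfl <;> simp [pA]

theorem pA_even {a : Fin 4} (ha : a = 0 ∨ a = 2) (x : H4) : pA x a = 0 := by
  rcases ha with rfl | rfl <;> simp [pA]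

/-- **(2)** the legs on the gaps, free component -/
theorem lgl_free_u {j : L} {x : Fin 3 × ℕ} (h : cmp R (big R m B) j = Sum.inr x)
    {a : Fin 4} (ha : a = 1 ∨ a = 3) (f : (W R m).Fr) :
    lgl κ R m B p j (col4 a) (.u f) = thL R m (big R m B) p.2.2.1 j ((W R m).vec (.u f)) a := by
  obtain ⟨k, c⟩ := x
  obtain ⟨hk, -⟩ := cmp_inr h
  rw [lgl_neck κ R m B p hk, thL_free h hk]
  simp only [legN, LX_u_im, zero_smul, add_zero, Pi.smul_apply, smul_eq_mul]
  rw [pA_odd ha, Pi.sub_apply, lam_odd κ ha, gg_odd κ ha]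
  ring

theorem thL_free_u {j : L} {x : Fin 3 × ℕ} (h : cmp R (big R m B) j = Sum.inr x)
    {a : Fin 4} (ha : a = 0 ∨ a = 2) (y : Fin 3 → ℝ) (f : (W R m).Fr) :
    thL R m (big R m B) y j ((W R m).vec (.u f)) a = 0 := by
  obtain ⟨k, c⟩ := x
  obtain ⟨hk, -⟩ := cmp_inr h
  rw [thL_free h hk]
  simp only [LX_u_im, zero_smul, add_zero, Pi.smul_apply, smul_eq_mul, pA_even ha, mul_zero]

theorem lgl_free_ph {j : L} {x : Fin 3 × ℕ} (h : cmp R (big R m B) j = Sum.inr x)
    (a : Fin 4) (f : (W R m).Fr) :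
    lgl κ R m B p j (col4 a) (.ph f) =
      thL R m (big R m B) p.2.2.1 j ((W R m).vec (.ph f)) a := by
  obtain ⟨k, c⟩ := x
  obtain ⟨hk, -⟩ := cmp_inr h
  rw [lgl_neck κ R m B p hk, thL_free h hk]
  simp only [legN, LX_ph_re, neg_zero, zero_smul, zero_add, Pi.smul_apply, smul_eq_mul, mm_apply]
  ring

theorem thL_free_ph {j : L} {x : Fin 3 × ℕ} (h : cmp R (big R m B) j = Sum.inr x)
    {a : Fin 4} (ha : a = 1 ∨ a = 3) (y : Fin 3 → ℝ) (f : (W R m).Fr) :
    thL R m (big R m B) y j ((W R m).vec (.ph f)) a = 0 := by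
  obtain ⟨k, c⟩ := x
  obtain ⟨hk, -⟩ := cmp_inr h
  rw [thL_free h hk]
  simp only [LX_ph_re, neg_zero, zero_smul, zero_add, Pi.smul_apply, smul_eq_mul, mm_apply,
    bt_odd ha, mul_zero]

/-- **(4)** two marks of the same free component have the same limit form -/
theorem thL_same_u {j j' : L} {x : Fin 3 × ℕ} (h : cmp R (big R m B) j = Sum.inr x)
    (h' : cmp R (big R m B) j' = Sum.inr x) (y : Fin 3 → ℝ) {f : (W R m).Fr} (hf : f ∈ B) :
    thL R m (big R m B) y j ((W R m).vec (.u f)) =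
      thL R m (big R m B) y j' ((W R m).vec (.u f)) := by
  obtain ⟨k, c⟩ := x
  obtain ⟨hk, hj⟩ := cmp_inr h
  obtain ⟨hk', hj'⟩ := cmp_inr h'
  rw [thL_free h hk, thL_free h' hk', LX_u_same hk hk' (hj.trans hj'.symm) hf]

theorem thL_same_ph {j j' : L} {x : Fin 3 × ℕ} (h : cmp R (big R m B) j = Sum.inr x)
    (h' : cmp R (big R m B) j' = Sum.inr x) (y : Fin 3 → ℝ) {f : (W R m).Fr} (hf : f ∈ B) :
    thL R m (big R m B) y j ((W R m).vec (.ph f)) =
      thL R m (big R m B) y j' ((W R m).vec (.ph f)) := by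
  obtain ⟨k, c⟩ := x
  obtain ⟨hk, hj⟩ := cmp_inr h
  obtain ⟨hk', hj'⟩ := cmp_inr h'
  rw [thL_free h hk, thL_free h' hk', LX_ph_same hk hk' (hj.trans hj'.symm) hf]

theorem thL_same_al {j j' : L} {x : Fin 3 × ℕ} (h : cmp R (big R m B) j = Sum.inr x)
    (h' : cmp R (big R m B) j' = Sum.inr x) (y : Fin 3 → ℝ) (l : Fin 3) :
    thL R m (big R m B) y j ((W R m).vec (.al l)) =
      thL R m (big R m B) y j' ((W R m).vec (.al l)) := by
  obtain ⟨k, c⟩ := x
  obtain ⟨hk, hj⟩ := cmp_inr h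
  obtain ⟨hk', hj'⟩ := cmp_inr h'
  rw [thL_free h hk, thL_free h' hk', LX_al_same hk hk' (hj.trans hj'.symm)]

theorem thL_same_y {j j' : L} {x : Fin 3 × ℕ} (h : cmp R (big R m B) j = Sum.inr x)
    (h' : cmp R (big R m B) j' = Sum.inr x) (y : Fin 3 → ℝ) (l : Fin 3) :
    thL R m (big R m B) y j ((W R m).vec (.y l)) =
      thL R m (big R m B) y j' ((W R m).vec (.y l)) := by
  obtain ⟨k, c⟩ := x
  obtain ⟨hk, hj⟩ := cmp_inr h
  obtain ⟨hk', hj'⟩ := cmp_inr h'
  rw [thL_free h hk, thL_free h' hk', LX_y_same hk hk' (hj.trans hj'.symm)]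

/-- **(5)** pure values on the base, free component -/
theorem thL_free_al {j : L} {x : Fin 3 × ℕ} {B : Finset R.Gap} (h : cmp R B j = Sum.inr x)
    {a : Fin 4} (ha : a = 1 ∨ a = 3) (y : Fin 3 → ℝ) (l : Fin 3) :
    thL R m B y j ((W R m).vec (.al l)) a = 0 := by
  obtain ⟨k, c⟩ := x
  obtain ⟨hk, -⟩ := cmp_inr h
  rw [thL_free h hk]
  simp only [LX_al_re, neg_zero, zero_smul, zero_add, Pi.smul_apply, smul_eq_mul, mm_apply,
    bt_odd ha, mul_zero]

theorem thL_free_y {j : L} {x : Fin 3 × ℕ} {B : Finset R.Gap} (h : cmp R B j = Sum.inr x)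
    {a : Fin 4} (ha : a = 0 ∨ a = 2) (y : Fin 3 → ℝ) (l : Fin 3) :
    thL R m B y j ((W R m).vec (.y l)) a = 0 := by
  obtain ⟨k, c⟩ := x
  obtain ⟨hk, -⟩ := cmp_inr h
  rw [thL_free h hk]
  simp only [LX_y_im, zero_smul, add_zero, Pi.smul_apply, smul_eq_mul, pA_even ha, mul_zero]

/-! ### the cores -/

/-- **(3)** the limit legs of a mark on the cores (also: of a neck with no large gap before it, or
with all the large gaps before it) -/
theorem lgl_core' {j : L} {s : Bool} (h : cmp R (big R m B) j = Sum.inl s)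
    (hy : ∀ k, 0 < p.2.2.1 k) (ξ : Fin 6 → ℝ) {d : BDir R m} (hd : d.ok R m (↑B)) :
    lgl κ R m B p j ξ d = legC κ R m ξ p.2.2.1 p.2.2.2.1 s d := by
  rcases hj : R.pl j with k | b
  · rw [lgl_neck κ R m B p hj]
    rcases cmp_inl_neck h hj with ⟨rfl, hc⟩ | ⟨rfl, hc⟩
    · -- no large gap before the mark
      have hnot : ∀ g ∈ big R m B, g ∉ wreg.bef R.n k (rkF R hj) := by
        intro g hg hm
        obtain ⟨a, b⟩ := mem_bef_iff.1 hm
        exact not_le_of_cnt hc hg a b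
      rw [depl_none hj hc]
      cases d with
      | u f =>
        simp only [legN, legC, LX_u, if_neg (hnot _ (free_big (Finset.mem_coe.1 hd))),
          if_neg (hnot _ (last_big _))]
        simp
      | ph f =>
        simp only [legN, legC, LX_ph, if_neg (hnot _ (free_big (Finset.mem_coe.1 hd))),
          if_neg (hnot _ (last_big _))]
        simp
      | al l =>
        simp only [legN, legC, LX_al, if_neg (hnot _ (last_big _))]
        by_cases hl : l = k
        · subst hl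
          simp
          ring
        · simp [hl]
      | eul l =>
        simp only [legN, legC]
        simp
    · -- all large gaps before the mark
      have hin : ∀ g ∈ big R m B, g ∈ wreg.bef R.n k (rkF R hj) ↔ g.1 = k := by
        intro g hg
        rw [mem_bef_iff]
        constructor
        · rintro ⟨a, -⟩
          exact a
        · intro a
          exact ⟨a, le_of_cnt hc hg a⟩
      have hy' : (1 : ℝ) - 2 * p.2.2.1 k / p.2.2.1 k = -1 := by
        rw [mul_div_assoc, div_self (hy k).ne']; norm_num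
      have hlast : ∀ l, ((W R m).last l).1 = l := fun l => (W R m).nk_last l
      rw [depl_full hj hc]
      cases d with
      | u f =>
        simp only [legN, legC, LX_u, hin _ (free_big (Finset.mem_coe.1 hd)),
          hin _ (last_big _), hlast]
        change 2 * (lam κ ξ p.2.2.1 p.2.2.2.1 - gg κ ξ p.2.2.2.1 k) / p.2.2.1 k *
          ((if f.1.1 = k then (1 : ℂ) else 0) - (if f.1.1 = k then 1 else 0)).re = 0
        simp
      | ph f =>
        simp only [legN, legC, LX_ph, hin _ (free_big (Finset.mem_coe.1 hd)),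
          hin _ (last_big _), hlast]
        change -(bt ξ k / Real.pi) *
          (((if f.1.1 = k then (1 : ℂ) else 0) - (if f.1.1 = k then 1 else 0)) *
            Complex.I).im = 0
        simp
      | al l =>
        simp only [legN, legC, LX_al, hin _ (last_big _), hlast, hy']
        by_cases hl : l = k
        · subst hl
          simp
          ring
        · simp [hl]
      | eul l =>
        simp only [legN, legC, hy']
        simp
  · rw [lgl_core κ R m B p hj, cmp_inl_core h hj]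

theorem thL_core_u {j : L} {s : Bool} {B : Finset R.Gap} (h : cmp R B j = Sum.inl s)
    (y : Fin 3 → ℝ) (f : (W R m).Fr) : thL R m B y j ((W R m).vec (.u f)) = 0 := by
  rw [thL_core h]
  simp [Reg.vec]

theorem thL_core_ph {j : L} {s : Bool} {B : Finset R.Gap} (h : cmp R B j = Sum.inl s)
    (y : Fin 3 → ℝ) (f : (W R m).Fr) : thL R m B y j ((W R m).vec (.ph f)) = 0 := by
  rw [thL_core h]
  simp [Reg.vec]

theorem sum_single_smul (l : Fin 3) (v : Fin 3 → H4) :
    ∑ k : Fin 3, (Pi.single l (1 : ℝ) : Fin 3 → ℝ) k • v k = v l := by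
  rw [Finset.sum_eq_single l]
  · rw [Pi.single_eq_same, one_smul]
  · intro b _ hb
    rw [Pi.single_eq_of_ne hb, zero_smul]
  · exact fun h => absurd (Finset.mem_univ l) h

theorem thL_core_al {j : L} {s : Bool} {B : Finset R.Gap} (h : cmp R B j = Sum.inl s)
    (y : Fin 3 → ℝ) (l : Fin 3) :
    thL R m B y j ((W R m).vec (.al l)) = (if s then (-1 : ℝ) else 1) • dlA y l := by
  rw [thL_core h]
  have h1 : ((W R m).vec (C := R.Cm) (.al l)).2.2.2.1 = Pi.single l (1 : ℝ) := rfl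
  have h2 : ((W R m).vec (C := R.Cm) (.al l)).2.2.1 = 0 := rfl
  rw [h1, h2, sum_single_smul]
  simp

theorem thL_core_y {j : L} {s : Bool} {B : Finset R.Gap} (h : cmp R B j = Sum.inl s)
    (y : Fin 3 → ℝ) (l : Fin 3) :
    thL R m B y j ((W R m).vec (.y l)) = (if s then (-1 : ℝ) else 1) • dlY y l := by
  rw [thL_core h]
  have h1 : ((W R m).vec (C := R.Cm) (.y l)).2.2.1 = Pi.single l (1 : ℝ) := rfl
  have h2 : ((W R m).vec (C := R.Cm) (.y l)).2.2.2.1 = 0 := rfl
  rw [h1, h2, sum_single_smul]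
  simp

theorem lgl_core_u {j : L} {s : Bool} (h : cmp R (big R m B) j = Sum.inl s)
    (hy : ∀ k, 0 < p.2.2.1 k) (ξ : Fin 6 → ℝ) {f : (W R m).Fr} (hf : f ∈ B) :
    lgl κ R m B p j ξ (.u f) = 0 :=
  (lgl_core' κ h hy ξ (d := .u f) (Finset.mem_coe.2 hf)).trans rfl

theorem lgl_core_ph {j : L} {s : Bool} (h : cmp R (big R m B) j = Sum.inl s)
    (hy : ∀ k, 0 < p.2.2.1 k) (ξ : Fin 6 → ℝ) {f : (W R m).Fr} (hf : f ∈ B) :
    lgl κ R m B p j ξ (.ph f) = 0 :=
  (lgl_core' κ h hy ξ (d := .ph f) (Finset.mem_coe.2 hf)).trans rfl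

theorem lgl_core_al {j : L} {s : Bool} (h : cmp R (big R m B) j = Sum.inl s)
    (hy : ∀ k, 0 < p.2.2.1 k) (a : Fin 4) (l : Fin 3) :
    lgl κ R m B p j (col4 a) (.al l) =
      thL R m (big R m B) p.2.2.1 j ((W R m).vec (.al l)) a := by
  rw [lgl_core' κ h hy _ (d := .al l) trivial, thL_core_al h]
  simp only [legC, Pi.smul_apply, smul_eq_mul]
  congr 1
  unfold lamA dlA
  rw [Pi.smul_apply, smul_eq_mul, mm_apply]
  ring

theorem thL_core_al_odd {j : L} {s : Bool} {B : Finset R.Gap} (h : cmp R B j = Sum.inl s)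
    {a : Fin 4} (ha : a = 1 ∨ a = 3) (y : Fin 3 → ℝ) (l : Fin 3) :
    thL R m B y j ((W R m).vec (.al l)) a = 0 := by
  rw [thL_core_al h]
  unfold dlA
  simp only [Pi.smul_apply, smul_eq_mul, mm_apply, bt_odd ha]
  simp

theorem lgl_core_eul {j : L} {s : Bool} (h : cmp R (big R m B) j = Sum.inl s)
    (hy : ∀ k, 0 < p.2.2.1 k) {a : Fin 4} (ha : a = 1 ∨ a = 3) (l : Fin 3) :
    lgl κ R m B p j (col4 a) (.eul l) =
      thL R m (big R m B) p.2.2.1 j ((W R m).vec (.y l)) a := by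
  rw [lgl_core' κ h hy _ (d := .eul l) trivial, thL_core_y h]
  simp only [legC, Pi.smul_apply, smul_eq_mul]
  congr 1
  unfold lamY dlY
  rw [Pi.smul_apply, smul_eq_mul, Pi.sub_apply, lam_odd κ ha, gg_odd κ ha]
  ring

theorem thL_core_y_even {j : L} {s : Bool} {B : Finset R.Gap} (h : cmp R B j = Sum.inl s)
    {a : Fin 4} (ha : a = 0 ∨ a = 2) (y : Fin 3 → ℝ) (l : Fin 3) :
    thL R m B y j ((W R m).vec (.y l)) a = 0 := by
  rw [thL_core_y h]
  unfold dlY
  simp only [Pi.smul_apply, smul_eq_mul, Pi.sub_apply, lamV_even ha, tt_even ha]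
  simp

end Alg

end Vale.Agent.P273.H422
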