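import Vale.Agent.P273.H573.Skel

/-!
# P273, LIM-PT: the slots of the frame `fr30`

`locE` : marks = free gaps + core marks; `slotE` : slots of the frame = two directions for every
free gap and every core mark, and two directions of the base.
-/

set_option linter.unusedSectionVars false

noncomputable section

namespace Vale.Agent.P273.H422

open H95 H573 H562 H732

section Frm

variable (R : Region) (m : ∀ k, Fin (R.n k + 1))

/-- the place of a mark: its free gap, or the core -/
def locS (j : L) : (W R m).Fr ⊕ R.Cm :=
  match h : R.pl j with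
  | Sum.inl k => Sum.inl (frE R.n m ⟨k, rkF R h⟩)
  | Sum.inr _ => Sum.inr ⟨j, by simp [h]⟩

theorem locS_neck {j : L} {k : Fin 3} (h : R.pl j = Sum.inl k) :
    locS R m j = Sum.inl (frE R.n m ⟨k, rkF R h⟩) := by
  unfold locS
  split
  · rename_i k' h'
    have hk : k' = k := by rw [h] at h'; exact (Sum.inl.inj h').symm
    subst hk
    rfl
  · rename_i s h'
    rw [h] at h'
    cases h'

theorem locS_core {j : L} {s : Bool} (h : R.pl j = Sum.inr s) :
    locS R m j = Sum.inr ⟨j, by simp [h]⟩ := by
  unfold locS
  split
  · rename_i k' h'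
    rw [h] at h'
    cases h'
  · rfl

theorem exists_rk (k : Fin 3) (i : Fin (R.n k)) : ∃ j : L, ∃ h : R.pl j = Sum.inl k, rkF R h = i := by
  have h1 : Function.Injective
      (fun y : {y : L // y ∈ Finset.univ.filter fun y => R.pl y = Sum.inl k} =>
        rkF R (Finset.mem_filter.1 y.2).2) := by
    rintro ⟨x, hx⟩ ⟨y, hy⟩ hxy
    apply Subtype.ext
    exact R.rk_inj x y k (Finset.mem_filter.1 hx).2 (Finset.mem_filter.1 hy).2
      (congrArg Fin.val hxy)
  have h2 := (Fintype.bijective_iff_injective_and_card _).2 ⟨h1, by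
    rw [Fintype.card_coe, Fintype.card_fin, Region.n]⟩
  obtain ⟨⟨j, hj⟩, hji⟩ := h2.2 i
  exact ⟨j, (Finset.mem_filter.1 hj).2, hji⟩

theorem locS_bijective : Function.Bijective (locS R m) := by
  constructor
  · intro x y hxy
    rcases hx : R.pl x with k | s <;> rcases hy : R.pl y with l | t
    · rw [locS_neck R m hx, locS_neck R m hy] at hxy
      have h1 := (frE R.n m).injective (Sum.inl.inj hxy)
      have h2 : k = l := congrArg Sigma.fst h1
      subst h2
      have h3 : rkF R hx = rkF R hy := by simpa using h1
      exact R.rk_inj x y k hx hy (congrArg Fin.val h3)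
    · rw [locS_neck R m hx, locS_core R m hy] at hxy
      exact absurd hxy (by simp)
    · rw [locS_core R m hx, locS_neck R m hy] at hxy
      exact absurd hxy (by simp)
    · rw [locS_core R m hx, locS_core R m hy] at hxy
      exact congrArg Subtype.val (Sum.inr.inj hxy)
  · rintro (f | c)
    · obtain ⟨⟨k, i⟩, rfl⟩ := (frE R.n m).surjective f
      obtain ⟨j, h, rfl⟩ := exists_rk R k i
      exact ⟨j, locS_neck R m h⟩
    · rcases hc : R.pl c.1 with k | s
      · have := c.2
        rw [hc] at this
        exact absurd this (by simp)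
      · exact ⟨c.1, locS_core R m hc⟩

/-- the marks are the free gaps and the core marks -/
def locE : L ≃ (W R m).Fr ⊕ R.Cm := Equiv.ofBijective _ (locS_bijective R m)

theorem mrk_bijective : Function.Bijective mrk := by
  rw [Fintype.bijective_iff_injective_and_card]
  refine ⟨fun a b h => ?_, by simp⟩
  unfold mrk at h
  split_ifs at h with h1 h2 h2
  · have := congrArg Prod.fst h
    simp only [Fin.mk.injEq] at this
    exact Fin.ext this
  · exact absurd (congrArg Prod.snd h) (by simp)
  · exact absurd (congrArg Prod.snd h) (by simp)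
  · have := congrArg Prod.fst h
    simp only [Fin.mk.injEq] at this
    exact Fin.ext (by omega)

/-- the numbers of the marks -/
def mrkE : Fin 14 ≃ L := Equiv.ofBijective _ mrk_bijective

theorem mrkE_apply (i : Fin 14) : mrkE i = mrk i := rfl

/-- the vector of a place -/
def dv (x : ((W R m).Fr ⊕ R.Cm)) (c : Bool) : Co R m :=
  match x with
  | Sum.inl f => if c then (W R m).vec (.ph f) else -(W R m).vec (.u f)
  | Sum.inr g => if c then (W R m).vec (.im g) else (W R m).vec (.re g)

theorem fr_eq (j : L) (c : Bool) : fr R m j c = dv R m (locE R m j) c := by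
  change fr R m j c = dv R m (locS R m j) c
  unfold fr
  split
  · rename_i k h
    rw [locS_neck R m h]
    rfl
  · rename_i s h
    rw [locS_core R m h]
    rfl

/-- the slots -/
abbrev Sl : Type := (((W R m).Fr ⊕ R.Cm) × Bool) ⊕ Bool

/-- the number of a slot -/
def slF : Sl R m → Fin (16 + 14)
  | Sum.inl (x, c) => ⟨2 * ((mrkE.trans (locE R m)).symm x : ℕ) + c.toNat, by
      have h1 := ((mrkE.trans (locE R m)).symm x).2
      have h2 := c.toNat_le
      omega⟩
  | Sum.inr c => ⟨28 + c.toNat, by
      have h2 := c.toNat_le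
      omega⟩

theorem slF_inl (x : (W R m).Fr ⊕ R.Cm) (c : Bool) :
    (slF R m (Sum.inl (x, c)) : ℕ) = 2 * ((mrkE.trans (locE R m)).symm x : ℕ) + c.toNat := rfl

theorem slF_inr (c : Bool) : (slF R m (Sum.inr c) : ℕ) = 28 + c.toNat := rfl

theorem slF_bijective : Function.Bijective (slF R m) := by
  constructor
  · rintro (⟨x, c⟩ | c) (⟨y, d⟩ | d) h
    · have h1 := congrArg Fin.val h
      rw [slF_inl, slF_inl] at h1
      have h2 := c.toNat_le
      have h3 := d.toNat_le
      have h4 : ((mrkE.trans (locE R m)).symm x : ℕ) = ((mrkE.trans (locE R m)).symm y : ℕ) := by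
        omega
      have h5 : x = y := (mrkE.trans (locE R m)).symm.injective (Fin.ext h4)
      have h6 : c.toNat = d.toNat := by omega
      have h7 : c = d := by
        cases c <;> cases d <;> simp_all
      rw [h5, h7]
    · have h1 := congrArg Fin.val h
      rw [slF_inl, slF_inr] at h1
      have h2 := c.toNat_le
      have h4 := ((mrkE.trans (locE R m)).symm x).2
      omega
    · have h1 := congrArg Fin.val h
      rw [slF_inl, slF_inr] at h1
      have h2 := d.toNat_le
      have h4 := ((mrkE.trans (locE R m)).symm y).2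
      omega
    · have h1 := congrArg Fin.val h
      rw [slF_inr, slF_inr] at h1
      have h6 : c.toNat = d.toNat := by omega
      have h7 : c = d := by
        cases c <;> cases d <;> simp_all
      rw [h7]
  · intro i
    by_cases hi : (i : ℕ) < 28
    · refine ⟨Sum.inl ((mrkE.trans (locE R m)) ⟨(i : ℕ) / 2, by omega⟩,
        decide ((i : ℕ) % 2 = 1)), Fin.ext ?_⟩
      rw [slF_inl, Equiv.symm_apply_apply]
      by_cases h1 : (i : ℕ) % 2 = 1
      · simp only [h1, decide_true, Bool.toNat_true]; omega
      · simp only [h1, decide_false, Bool.toNat_false]; omega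
    · have h2 := i.2
      refine ⟨Sum.inr (decide ((i : ℕ) = 29)), Fin.ext ?_⟩
      rw [slF_inr]
      by_cases h1 : (i : ℕ) = 29
      · simp only [h1, decide_true, Bool.toNat_true]
      · simp only [h1, decide_false, Bool.toNat_false]; omega

/-- the slots of the frame -/
def slE : Sl R m ≃ Fin (16 + 14) := Equiv.ofBijective _ (slF_bijective R m)

/-- the vector of a slot -/
def sv (a b : Co R m) : Sl R m → Co R m
  | Sum.inl (x, c) => dv R m x c
  | Sum.inr c => if c then b else a

/-- **the frame in terms of the slots** -/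
theorem fr30_slE (a b : Co R m) (x : Sl R m) : fr30 R m a b (slE R m x) = sv R m a b x := by
  rcases x with ⟨x, c⟩ | c
  · have h0 := ((mrkE.trans (locE R m)).symm x).2
    have h2 := c.toNat_le
    have h1 : slE R m (Sum.inl (x, c)) = (Fin.castAdd 2
        (⟨2 * ((mrkE.trans (locE R m)).symm x : ℕ) + c.toNat, by omega⟩ : Fin 28) :
          Fin (28 + 2)) := Fin.ext rfl
    unfold fr30
    rw [h1, Fin.append_left]
    unfold fr28
    have h3 : (⟨(2 * ((mrkE.trans (locE R m)).symm x : ℕ) + c.toNat) / 2, by omega⟩ : Fin 14) =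
        (mrkE.trans (locE R m)).symm x := Fin.ext (by
      change (2 * ((mrkE.trans (locE R m)).symm x : ℕ) + c.toNat) / 2 = _
      omega)
    have h4 : decide ((2 * ((mrkE.trans (locE R m)).symm x : ℕ) + c.toNat) % 2 = 1) = c := by
      have h5 : (2 * ((mrkE.trans (locE R m)).symm x : ℕ) + c.toNat) % 2 = c.toNat := by omega
      rw [h5]
      cases c <;> rfl
    simp only [h3, h4]
    rw [← mrkE_apply, fr_eq]
    have h6 : locE R m (mrkE ((mrkE.trans (locE R m)).symm x)) = x :=
      (mrkE.trans (locE R m)).apply_symm_apply x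
    rw [h6]
    rfl
  · have h1 : slE R m (Sum.inr c) = (Fin.natAdd 28
        (⟨c.toNat, by have := c.toNat_le; omega⟩ : Fin 2) : Fin (28 + 2)) := Fin.ext rfl
    unfold fr30
    rw [h1, Fin.append_right]
    cases c <;> rfl

end Frm

end Vale.Agent.P273.H422
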