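import Vale.Agent.P273.H879.Scale
import Vale.Agent.P273.H95.Wall

/-!
Bounds of the full form `F ∧ T(θ_1,...,θ_14)` at the theta point: all legs are measured in a scaled
frame of `H`. Tori: the form `T` kills nine arguments in the Lagrangian. Annuli: `T` kills eight
arguments in the Lagrangian and is fixed by the transvection of the pair that shrinks.
-/

open Finset Function

namespace Vale.Agent.P273.H422

noncomputable section

open H973 H266 H879

set_option linter.unusedSectionVars false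

variable {E H : Type*} [NormedAddCommGroup E] [NormedSpace ℝ E]
  [NormedAddCommGroup H] [NormedSpace ℝ H] [FiniteDimensional ℝ H]

/-- Scaling of the basis vectors. -/
def upf (b : Module.Basis (Fin 4) ℝ H) (f : Fin 4 → ℝ) (x : H) : H :=
  ∑ k, (b.repr x k * f k) • b k

/-- The inverse scaling. -/
def dnf (b : Module.Basis (Fin 4) ℝ H) (f : Fin 4 → ℝ) (x : H) : H :=
  ∑ k, ((f k)⁻¹ * b.repr x k) • b k

theorem upf_dnf (b : Module.Basis (Fin 4) ℝ H) {f : Fin 4 → ℝ} (hf : ∀ k, 0 < f k) (x : H) :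
    upf b f (dnf b f x) = x := by
  have h1 : ∀ k, b.repr (dnf b f x) k = (f k)⁻¹ * b.repr x k := by
    intro k
    have h := congrFun (b.repr_sum_self fun k => (f k)⁻¹ * b.repr x k) k
    exact h
  rw [upf]
  simp_rw [h1]
  conv_rhs => rw [← b.sum_repr x]
  refine Finset.sum_congr rfl fun k _ => ?_
  congr 1
  have := (hf k).ne'
  field_simp

theorem abs_upf_le {n : ℕ} (T : ContinuousMultilinearMap ℝ (fun _ : Fin n => H) ℝ)
    (b : Module.Basis (Fin 4) ℝ H) {f : Fin 4 → ℝ} (hf : ∀ k, 0 < f k) {Λ : ℝ} (hΛ0 : 0 ≤ Λ)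
    (hΛ : ∀ τ : Fin n → Fin 4, T (fun j => b (τ j)) ≠ 0 → ∏ j, f (τ j) ≤ Λ) (x : Fin n → H) :
    ‖T (fun j => upf b f (x j))‖ ≤ (sK n b * (‖T‖ * Λ)) * ∏ j, ‖x j‖ := by
  classical
  have h0 : T (fun j => upf b f (x j)) = ∑ τ : Fin n → Fin 4,
      T (fun j => (b.repr (x j) (τ j) * f (τ j)) • b (τ j)) := by
    have := T.toMultilinearMap.map_sum (fun (j : Fin n) (k : Fin 4) =>
      (b.repr (x j) k * f k) • b k)
    simpa [upf] using this
  have h7 := cb_nonneg b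
  have h1 : ∀ τ : Fin n → Fin 4, ‖T (fun j => (b.repr (x j) (τ j) * f (τ j)) • b (τ j))‖ ≤
      cb b ^ n * cb b ^ n * (‖T‖ * Λ) * ∏ j, ‖x j‖ := by
    intro τ
    have h2 : T (fun j => (b.repr (x j) (τ j) * f (τ j)) • b (τ j)) =
        (∏ j, (b.repr (x j) (τ j) * f (τ j))) • T (fun j => b (τ j)) :=
      T.map_smul_univ _ _
    rw [h2, norm_smul]
    by_cases hz : T (fun j => b (τ j)) = 0
    · rw [hz, norm_zero, mul_zero]
      positivity
    have h5 : ‖T (fun j => b (τ j))‖ ≤ ‖T‖ * cb b ^ n := by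
      refine (T.le_opNorm _).trans ?_
      refine mul_le_mul_of_nonneg_left ?_ (norm_nonneg _)
      calc ∏ j, ‖b (τ j)‖ ≤ ∏ _j : Fin n, cb b :=
            Finset.prod_le_prod (fun j _ => norm_nonneg _) fun j _ => norm_basis_le b _
        _ = cb b ^ n := by rw [Finset.prod_const, Finset.card_univ, Fintype.card_fin]
    have h6 : ‖∏ j, (b.repr (x j) (τ j) * f (τ j))‖ ≤ cb b ^ n * (∏ j, ‖x j‖) * Λ := by
      rw [Finset.prod_mul_distrib, norm_mul]
      refine mul_le_mul ?_ ?_ (norm_nonneg _) (by positivity)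
      · rw [norm_prod]
        calc ∏ j, ‖b.repr (x j) (τ j)‖ ≤ ∏ j, (cb b * ‖x j‖) :=
              Finset.prod_le_prod (fun j _ => norm_nonneg _) fun j _ => abs_repr_le b _ _
          _ = cb b ^ n * ∏ j, ‖x j‖ := by
              rw [Finset.prod_mul_distrib, Finset.prod_const, Finset.card_univ, Fintype.card_fin]
      · rw [Real.norm_of_nonneg (Finset.prod_nonneg fun j _ => (hf _).le)]
        exact hΛ τ hz
    calc ‖∏ j, (b.repr (x j) (τ j) * f (τ j))‖ * ‖T (fun j => b (τ j))‖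
        ≤ (cb b ^ n * (∏ j, ‖x j‖) * Λ) * (‖T‖ * cb b ^ n) :=
          mul_le_mul h6 h5 (norm_nonneg _) (by positivity)
      _ = cb b ^ n * cb b ^ n * (‖T‖ * Λ) * ∏ j, ‖x j‖ := by ring
  rw [h0]
  calc ‖∑ τ : Fin n → Fin 4, T (fun j => (b.repr (x j) (τ j) * f (τ j)) • b (τ j))‖
      ≤ ∑ _τ : Fin n → Fin 4, cb b ^ n * cb b ^ n * (‖T‖ * Λ) * ∏ j, ‖x j‖ :=
        (norm_sum_le _ _).trans (Finset.sum_le_sum fun τ _ => h1 τ)
    _ = (sK n b * (‖T‖ * Λ)) * ∏ j, ‖x j‖ := by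
        rw [Finset.sum_const, Finset.card_univ, nsmul_eq_mul, sK]
        ring

theorem norm_dnf_le (b : Module.Basis (Fin 4) ℝ H) {f : Fin 4 → ℝ} (hf : ∀ k, 0 < f k) {B c : ℝ}
    {x : H} (hx : ∀ k, |b.repr x k| ≤ B * f k * c) : ‖dnf b f x‖ ≤ (B * (4 * cb b)) * c := by
  have h1 : ∀ k, ‖((f k)⁻¹ * b.repr x k) • b k‖ ≤ B * c * cb b := by
    intro k
    rw [norm_smul]
    have h2 : ‖(f k)⁻¹ * b.repr x k‖ ≤ B * c := by
      rw [norm_mul, Real.norm_eq_abs, Real.norm_eq_abs, abs_of_pos (inv_pos.2 (hf k))]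
      calc (f k)⁻¹ * |b.repr x k| ≤ (f k)⁻¹ * (B * f k * c) :=
            mul_le_mul_of_nonneg_left (hx k) (inv_pos.2 (hf k)).le
        _ = B * c := by have := (hf k).ne'; field_simp
    have h5 := norm_basis_le b k
    exact mul_le_mul h2 h5 (norm_nonneg _) ((norm_nonneg _).trans h2)
  calc ‖dnf b f x‖ ≤ ∑ _k : Fin 4, B * c * cb b :=
        (norm_sum_le _ _).trans (Finset.sum_le_sum fun k _ => h1 k)
    _ = (B * (4 * cb b)) * c := by
        rw [Finset.sum_const, Finset.card_univ, Fintype.card_fin, nsmul_eq_mul]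
        push_cast
        ring

/-- **(S1)** The wedge bound with any scaling of the frame. -/
theorem norm_wedgeT_le_f {m n : ℕ} (F : E [⋀^Fin m]→L[ℝ] ℝ)
    (T : ContinuousMultilinearMap ℝ (fun _ : Fin n => H) ℝ) (θ : Fin n → E →L[ℝ] H)
    (w : Fin (m + n) → E) (c : Fin (m + n) → ℝ) (hc : ∀ i, 0 ≤ c i)
    (b : Module.Basis (Fin 4) ℝ H) {f : Fin 4 → ℝ} (hf : ∀ k, 0 < f k) {Λ : ℝ} (hΛ0 : 0 ≤ Λ)
    (hΛ : ∀ τ : Fin n → Fin 4, T (fun j => b (τ j)) ≠ 0 → ∏ j, f (τ j) ≤ Λ)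
    {A B : ℝ} (hA : 0 ≤ A)
    (hF : ∀ I : Fin m → Fin (m + n), Injective I → |F (fun i => w (I i))| ≤ A * ∏ i, c (I i))
    (hθ : ∀ j i k, |b.repr (θ j (w i)) k| ≤ B * f k * c i) :
    ‖wedgeT F T θ w‖ ≤ wc m n * (A * (sK n b * (‖T‖ * Λ) * (B * (4 * cb b)) ^ n)) * ∏ i, c i := by
  refine norm_wedgeT_le_scaled F T θ w c hc (upf b f) (dnf b f) (upf_dnf b hf) hA
    (mul_nonneg (sK_nonneg n b) (mul_nonneg (norm_nonneg _) hΛ0))
    (fun x => abs_upf_le T b hf hΛ0 hΛ x) hF fun j i => ?_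
  exact norm_dnf_le b hf fun k => hθ j i k

/-! ### The products of the scales -/

theorem prod_scale {n : ℕ} (f : Fin 4 → ℝ) (τ : Fin n → Fin 4) :
    ∏ j, f (τ j) = f 0 ^ (univ.filter fun j => τ j = 0).card *
      f 1 ^ (univ.filter fun j => τ j = 1).card * f 2 ^ (univ.filter fun j => τ j = 2).card *
      f 3 ^ (univ.filter fun j => τ j = 3).card := by
  classical
  have h : ∏ k : Fin 4, f k ^ (univ.filter fun j => τ j = k).card = ∏ j, f (τ j) := by
    rw [← Finset.prod_fiberwise univ τ fun j => f (τ j)]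
    refine Finset.prod_congr rfl fun k _ => ?_
    rw [Finset.prod_congr rfl (g := fun _ => f k) fun j hj => by rw [(Finset.mem_filter.1 hj).2],
      Finset.prod_const]
  rw [← h, Fin.prod_univ_four]

theorem card_scale {n : ℕ} (τ : Fin n → Fin 4) :
    (univ.filter fun j => τ j = 0).card + (univ.filter fun j => τ j = 1).card +
      (univ.filter fun j => τ j = 2).card + (univ.filter fun j => τ j = 3).card = n := by
  classical
  have h := Finset.card_eq_sum_card_fiberwise (f := τ) (s := univ) (t := univ)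
    (fun _ _ => Finset.mem_coe.2 (Finset.mem_univ _))
  rw [Finset.card_univ, Fintype.card_fin, Fin.sum_univ_four] at h
  exact h.symm

theorem card_or {n : ℕ} (τ : Fin n → Fin 4) :
    (univ.filter fun j => τ j = 0 ∨ τ j = 2).card =
      (univ.filter fun j => τ j = 0).card + (univ.filter fun j => τ j = 2).card := by
  classical
  rw [Finset.filter_or, Finset.card_union_of_disjoint]
  rw [Finset.disjoint_left]
  intro j h1 h2
  have e1 := (Finset.mem_filter.1 h1).2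
  have e2 := (Finset.mem_filter.1 h2).2
  rw [e1] at e2
  exact absurd e2 (by decide)

theorem scale_torus {n μ : ℕ} {t : ℝ} (ht : 1 ≤ t) (hn : n ≤ 2 * μ) (hμ : μ ≤ n) {τ : Fin n → Fin 4}
    (hτ : (univ.filter fun j => τ j = 0 ∨ τ j = 2).card ≤ μ) :
    ∏ j, (![t, t⁻¹, t, t⁻¹] : Fin 4 → ℝ) (τ j) ≤ t ^ (2 * μ - n) := by
  have ht0 : 0 < t := zero_lt_one.trans_le ht
  rw [prod_scale]
  have h1 := card_scale τ
  rw [card_or] at hτ
  set a := (univ.filter fun j => τ j = 0).card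
  set b := (univ.filter fun j => τ j = 1).card
  set c := (univ.filter fun j => τ j = 2).card
  set d := (univ.filter fun j => τ j = 3).card
  simp only [Matrix.cons_val_zero, Matrix.cons_val_one, Matrix.cons_val]
  have h2 : t ^ a * t⁻¹ ^ b * t ^ c * t⁻¹ ^ d = t ^ (a + c) * t⁻¹ ^ (b + d) := by
    rw [pow_add, pow_add]; ring
  rw [h2]
  have h3 : t ^ (a + c) ≤ t ^ μ := pow_le_pow_right₀ ht hτ
  have h4 : t⁻¹ ^ (b + d) ≤ t⁻¹ ^ (n - μ) :=
    pow_le_pow_of_le_one (inv_pos.2 ht0).le (inv_le_one_of_one_le₀ ht) (by omega)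
  calc t ^ (a + c) * t⁻¹ ^ (b + d) ≤ t ^ μ * t⁻¹ ^ (n - μ) :=
        mul_le_mul h3 h4 (by positivity) (by positivity)
    _ = t ^ (2 * μ - n) := by
        obtain ⟨k, hk⟩ : ∃ k, μ = (n - μ) + k := ⟨μ - (n - μ), by omega⟩
        have h5 : 2 * μ - n = k := by omega
        rw [h5]
        conv_lhs => rw [hk]
        rw [pow_add]
        have h6 : n - (n - μ + k) = n - μ := by omega
        rw [h6, mul_assoc, mul_comm (t ^ k), ← mul_assoc, ← mul_pow, mul_inv_cancel₀ ht0.ne',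
          one_pow, one_mul]

theorem scale_ann {n μ : ℕ} {r t : ℝ} (ht : 1 ≤ t) (hr : t ≤ r) (hn : n = 2 * μ) {τ : Fin n → Fin 4}
    (hτ : (univ.filter fun j => τ j = 0 ∨ τ j = 2).card ≤ μ)
    (hqp : (univ.filter fun j => τ j = 0).card ≤ (univ.filter fun j => τ j = 1).card) :
    ∏ j, (![r, r⁻¹, t, t⁻¹] : Fin 4 → ℝ) (τ j) ≤ 1 := by
  have ht0 : 0 < t := zero_lt_one.trans_le ht
  have hr0 : 0 < r := ht0.trans_le hr
  rw [prod_scale]
  have h1 := card_scale τ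
  rw [card_or] at hτ
  set a := (univ.filter fun j => τ j = 0).card
  set b := (univ.filter fun j => τ j = 1).card
  set c := (univ.filter fun j => τ j = 2).card
  set d := (univ.filter fun j => τ j = 3).card
  simp only [Matrix.cons_val_zero, Matrix.cons_val_one, Matrix.cons_val]
  obtain ⟨k, hk⟩ := Nat.exists_eq_add_of_le hqp
  have h2 : r ^ a * r⁻¹ ^ b ≤ t ^ a * t⁻¹ ^ b := by
    rw [hk, pow_add, pow_add, ← mul_assoc, ← mul_assoc, ← mul_pow, ← mul_pow,
      mul_inv_cancel₀ hr0.ne', mul_inv_cancel₀ ht0.ne', one_pow, one_mul, one_mul]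
    exact pow_le_pow_left₀ (inv_pos.2 hr0).le (inv_anti₀ ht0 hr) k
  calc r ^ a * r⁻¹ ^ b * t ^ c * t⁻¹ ^ d = (r ^ a * r⁻¹ ^ b) * (t ^ c * t⁻¹ ^ d) := by ring
    _ ≤ (t ^ a * t⁻¹ ^ b) * (t ^ c * t⁻¹ ^ d) := mul_le_mul_of_nonneg_right h2 (by positivity)
    _ = t ^ (a + c) * t⁻¹ ^ (b + d) := by rw [pow_add, pow_add]; ring
    _ ≤ t ^ μ * t⁻¹ ^ μ :=
        mul_le_mul (pow_le_pow_right₀ ht hτ)
          (pow_le_pow_of_le_one (inv_pos.2 ht0).le (inv_le_one_of_one_le₀ ht) (by omega))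
          (by positivity) (by positivity)
    _ = 1 := by rw [← mul_pow, mul_inv_cancel₀ ht0.ne', one_pow]

/-! ### The bounds for an adapted basis -/

/-- **(S2)** abstract form: nine arguments in the span of `b 0`, `b 2` kill `T`. -/
theorem norm_wedgeT_torus {m : ℕ} (F : E [⋀^Fin m]→L[ℝ] ℝ)
    (T : ContinuousMultilinearMap ℝ (fun _ : Fin 14 => H) ℝ) (θ : Fin 14 → E →L[ℝ] H)
    (w : Fin (m + 14) → E) (c : Fin (m + 14) → ℝ) (hc : ∀ i, 0 ≤ c i)
    (b : Module.Basis (Fin 4) ℝ H)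
    (hK : ∀ τ : Fin 14 → Fin 4, 9 ≤ (univ.filter fun j => τ j = 0 ∨ τ j = 2).card →
      T (fun j => b (τ j)) = 0) {t : ℝ} (ht : 1 ≤ t)
    {A B : ℝ} (hA : 0 ≤ A)
    (hF : ∀ I : Fin m → Fin (m + 14), Injective I → |F (fun i => w (I i))| ≤ A * ∏ i, c (I i))
    (h0 : ∀ j i, |b.repr (θ j (w i)) 0| ≤ B * t * c i)
    (h1 : ∀ j i, |b.repr (θ j (w i)) 1| ≤ B * t⁻¹ * c i)
    (h2 : ∀ j i, |b.repr (θ j (w i)) 2| ≤ B * t * c i)
    (h3 : ∀ j i, |b.repr (θ j (w i)) 3| ≤ B * t⁻¹ * c i) :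
    ‖wedgeT F T θ w‖ ≤
      wc m 14 * (A * (sK 14 b * (‖T‖ * t ^ 2) * (B * (4 * cb b)) ^ 14)) * ∏ i, c i := by
  have ht0 : 0 < t := zero_lt_one.trans_le ht
  refine norm_wedgeT_le_f F T θ w c hc b (f := ![t, t⁻¹, t, t⁻¹]) (fun k => ?_) (by positivity)
    (fun τ hτ => ?_) hA hF fun j i k => ?_
  · fin_cases k <;> simp [ht0]
  · have h9 : (univ.filter fun j => τ j = 0 ∨ τ j = 2).card ≤ 8 := by
      by_contra h
      exact hτ (hK τ (by omega))
    exact scale_torus (μ := 8) ht (by norm_num) (by norm_num) h9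
  · fin_cases k
    · simpa using h0 j i
    · simpa using h1 j i
    · simpa using h2 j i
    · simpa using h3 j i

/-- **(S3)** abstract form: eight arguments in the span of `b 0`, `b 2` kill `T`, and `T` is fixed
by the transvection `s`. -/
theorem norm_wedgeT_ann {m : ℕ} (F : E [⋀^Fin m]→L[ℝ] ℝ)
    (T : ContinuousMultilinearMap ℝ (fun _ : Fin 14 => H) ℝ) (θ : Fin 14 → E →L[ℝ] H)
    (w : Fin (m + 14) → E) (c : Fin (m + 14) → ℝ) (hc : ∀ i, 0 ≤ c i)
    (b : Module.Basis (Fin 4) ℝ H)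
    (hK : ∀ τ : Fin 14 → Fin 4, 8 ≤ (univ.filter fun j => τ j = 0 ∨ τ j = 2).card →
      T (fun j => b (τ j)) = 0)
    (s : H → H) {κ : ℝ} (hκ : κ ≠ 0) (hs : ∀ k, s (b k) = b k + if k = 1 then κ • b 0 else 0)
    (hT : ∀ x : Fin 14 → H, T (fun i => s (x i)) = T x) {r t : ℝ} (ht : 1 ≤ t) (hr : t ≤ r)
    {A B : ℝ} (hA : 0 ≤ A)
    (hF : ∀ I : Fin m → Fin (m + 14), Injective I → |F (fun i => w (I i))| ≤ A * ∏ i, c (I i))
    (h0 : ∀ j i, |b.repr (θ j (w i)) 0| ≤ B * r * c i)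
    (h1 : ∀ j i, |b.repr (θ j (w i)) 1| ≤ B * r⁻¹ * c i)
    (h2 : ∀ j i, |b.repr (θ j (w i)) 2| ≤ B * t * c i)
    (h3 : ∀ j i, |b.repr (θ j (w i)) 3| ≤ B * t⁻¹ * c i) :
    ‖wedgeT F T θ w‖ ≤
      wc m 14 * (A * (sK 14 b * (‖T‖ * 1) * (B * (4 * cb b)) ^ 14)) * ∏ i, c i := by
  have ht0 : 0 < t := zero_lt_one.trans_le ht
  have hr0 : 0 < r := ht0.trans_le hr
  refine norm_wedgeT_le_f F T θ w c hc b (f := ![r, r⁻¹, t, t⁻¹]) (fun k => ?_) zero_le_one
    (fun τ hτ => ?_) hA hF fun j i k => ?_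
  · fin_cases k <;> simp [ht0, hr0]
  · have h8 : (univ.filter fun j => τ j = 0 ∨ τ j = 2).card ≤ 7 := by
      by_contra h
      exact hτ (hK τ (by omega))
    have hqp : (univ.filter fun j => τ j = 0).card ≤ (univ.filter fun j => τ j = 1).card := by
      by_contra h
      exact hτ (weights_of_fixed_form T.toMultilinearMap b s (p := 1) (q := 0) (by decide) hκ hs hT
        (not_le.1 h))
    exact scale_ann (μ := 7) ht hr (by norm_num) h8 hqp
  · fin_cases k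
    · simpa using h0 j i
    · simpa using h1 j i
    · simpa using h2 j i
    · simpa using h3 j i

end

end Vale.Agent.P273.H422
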