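import Vale.Agent.P273.H422.Scl

/-!
The bounds of `Scl.lean` for the values `H4` of the potentials: adapted bases at the three pairs,
the Lagrangian `M` spanned by the vanishing cycles.
-/

open Finset Function

namespace Vale.Agent.P273.H422

noncomputable section

open H973 H266 H879 H95

variable {E : Type*} [NormedAddCommGroup E] [NormedSpace ℝ E]

/-- The Lagrangian spanned by the vanishing cycles `e1`, `e1 + e2`, `e2`. -/
def ML : Set H4 := {x | x 1 = 0 ∧ x 3 = 0}

open Classical in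
/-- `T` vanishes if at least `m` arguments are in `ML`. -/
def Kill (T : MT) (m : ℕ) : Prop :=
  ∀ x : Fin 14 → H4, m ≤ (univ.filter fun j => x j ∈ ML).card → T x = 0

/-- The index of the half twist of the pair `i`. -/
def ix : Fin 3 → Fin 5 := ![0, 2, 4]

/-- The coordinates in the frame of the pair `i`: (vanishing cycle, dual, the others). -/
def crd (i : Fin 3) (x : H4) : Fin 4 → ℝ :=
  ![![x 0, x 1, x 2, x 3], ![x 2, x 1 + x 3, x 0 - x 2, x 3], ![x 2, x 3, x 0, x 1]] i

/-- The inverse. -/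
def dcr (i : Fin 3) (y : Fin 4 → ℝ) : H4 :=
  ![![y 0, y 1, y 2, y 3], ![y 0 + y 2, y 1 - y 3, y 0, y 3], ![y 2, y 3, y 0, y 1]] i

/-- The coordinates as a linear equivalence. -/
def crdE (i : Fin 3) : H4 ≃ₗ[ℝ] (Fin 4 → ℝ) where
  toFun := crd i
  invFun := dcr i
  map_add' x y := by
    fin_cases i <;> funext k <;> fin_cases k <;> simp [crd] <;> ring
  map_smul' c x := by
    fin_cases i <;> funext k <;> fin_cases k <;> simp [crd] <;> ring
  left_inv x := by
    fin_cases i <;> funext k <;> fin_cases k <;> simp [crd, dcr]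
  right_inv y := by
    fin_cases i <;> funext k <;> fin_cases k <;> simp [crd, dcr]

/-- The adapted basis of the pair `i`. -/
def bas (i : Fin 3) : Module.Basis (Fin 4) ℝ H4 := Module.Basis.ofEquivFun (crdE i)

theorem bas_repr (i : Fin 3) (x : H4) (k : Fin 4) : (bas i).repr x k = crd i x k := rfl

theorem bas_apply (i : Fin 3) (k : Fin 4) : bas i k = dcr i (Pi.single k 1) := by
  rw [bas, Module.Basis.coe_ofEquivFun]
  rfl

theorem bas_mem (i : Fin 3) {k : Fin 4} (hk : k = 0 ∨ k = 2) : bas i k ∈ ML := by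
  rw [bas_apply]
  rcases hk with rfl | rfl <;> fin_cases i <;> constructor <;> simp [dcr]

theorem bas_sH (i : Fin 3) (k : Fin 4) :
    sH (ix i) (bas i k) = bas i k + if k = 1 then (1 : ℝ) • bas i 0 else 0 := by
  have h : ∀ (l : Fin 5) (x : H4), sH l x = x + om (dk l) x • dk l := fun _ _ => rfl
  rw [h, bas_apply, bas_apply]
  fin_cases i <;> fin_cases k <;> funext j <;> fin_cases j <;>
    simp [dcr, ix, dk, om]

theorem kill_bas {T : MT} {m : ℕ} (hT : Kill T m) (i : Fin 3) (τ : Fin 14 → Fin 4)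
    (hτ : m ≤ (univ.filter fun j => τ j = 0 ∨ τ j = 2).card) : T (fun j => bas i (τ j)) = 0 := by
  classical
  refine hT _ (hτ.trans ?_)
  refine Finset.card_le_card fun j hj => ?_
  exact Finset.mem_filter.2 ⟨Finset.mem_univ _, bas_mem i (Finset.mem_filter.1 hj).2⟩

/-- The constant of the bounds. -/
def KK (m : ℕ) (i : Fin 3) (T : MT) (A B : ℝ) : ℝ :=
  wc m 14 * (A * (sK 14 (bas i) * ‖T‖ * (B * (4 * cb (bas i))) ^ 14))

/-- **(S2) TORUS.** -/
theorem wedge_torus {m : ℕ} (F : E [⋀^Fin m]→L[ℝ] ℝ) {T : MT} (hT : Kill T 9)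
    (θ : Fin 14 → E →L[ℝ] H4) (w : Fin (m + 14) → E) (c : Fin (m + 14) → ℝ) (hc : ∀ i, 0 ≤ c i)
    {t : ℝ} (ht : 1 ≤ t) {A B : ℝ} (hA : 0 ≤ A)
    (hF : ∀ I : Fin m → Fin (m + 14), Injective I → |F (fun i => w (I i))| ≤ A * ∏ i, c (I i))
    (h0 : ∀ j i, |θ j (w i) 0| ≤ B * t * c i) (h1 : ∀ j i, |θ j (w i) 1| ≤ B * t⁻¹ * c i)
    (h2 : ∀ j i, |θ j (w i) 2| ≤ B * t * c i) (h3 : ∀ j i, |θ j (w i) 3| ≤ B * t⁻¹ * c i) :
    ‖wedgeT F T θ w‖ ≤ KK m 0 T A B * t ^ 2 * ∏ i, c i := by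
  refine (norm_wedgeT_torus F T θ w c hc (bas 0) (kill_bas hT 0) ht hA hF h0 h1 h2 h3).trans
    (le_of_eq ?_)
  rw [KK]
  ring

/-- **(S3) ANNULUS** of the pair `i`: the components in the frame of the pair `i` are
`b1, a1, b2, a2`. -/
theorem wedge_ann {m : ℕ} (i : Fin 3) (F : E [⋀^Fin m]→L[ℝ] ℝ) {T : MT} (hT : Kill T 8)
    (hs : ∀ x : Fin 14 → H4, T (fun j => sH (ix i) (x j)) = T x)
    (θ : Fin 14 → E →L[ℝ] H4) (w : Fin (m + 14) → E) (c : Fin (m + 14) → ℝ) (hc : ∀ l, 0 ≤ c l)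
    {r t : ℝ} (ht : 1 ≤ t) (hr : t ≤ r) {A B : ℝ} (hA : 0 ≤ A)
    (hF : ∀ I : Fin m → Fin (m + 14), Injective I → |F (fun i => w (I i))| ≤ A * ∏ i, c (I i))
    (h0 : ∀ j l, |crd i (θ j (w l)) 0| ≤ B * r * c l)
    (h1 : ∀ j l, |crd i (θ j (w l)) 1| ≤ B * r⁻¹ * c l)
    (h2 : ∀ j l, |crd i (θ j (w l)) 2| ≤ B * t * c l)
    (h3 : ∀ j l, |crd i (θ j (w l)) 3| ≤ B * t⁻¹ * c l) :
    ‖wedgeT F T θ w‖ ≤ KK m i T A B * ∏ l, c l := by
  refine (norm_wedgeT_ann F T θ w c hc (bas i) (kill_bas hT i) (fun x => sH (ix i) x)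
    one_ne_zero (bas_sH i) hs ht hr hA hF h0 h1 h2 h3).trans (le_of_eq ?_)
  rw [KK]
  ring

theorem om_ML {x y : H4} (hx : x ∈ ML) (hy : y ∈ ML) : om x y = 0 := by
  simp [om, hx.1, hx.2, hy.1, hy.2]

theorem dk_ML (i : Fin 3) : dk (ix i) ∈ ML := by
  fin_cases i <;> constructor <;> simp [dk, ix]

theorem smul_ML {x : H4} (hx : x ∈ ML) (c : ℝ) : c • x ∈ ML := by
  constructor
  · simp [hx.1]
  · simp [hx.2]

/-- **(S4)** the components of the boundary kill one argument less. -/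
theorem kill_sub {T : MT} {m : ℕ} (hT : Kill T (m + 1)) (i : Fin 3) :
    Kill (T.compContinuousLinearMap (fun _ => sH (ix i)) - T) m := by
  classical
  intro x hx
  set y : Fin 14 → H4 := fun j => om (dk (ix i)) (x j) • dk (ix i) with hy
  have hxy : (T.compContinuousLinearMap (fun _ => sH (ix i))) x = T (x + y) := rfl
  have hexp := T.map_add_univ x y
  have hsplit : ∑ s : Finset (Fin 14), T (s.piecewise x y) = T x := by
    rw [Finset.sum_eq_single_of_mem Finset.univ (Finset.mem_univ _)]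
    · rw [Finset.piecewise_univ]
    intro s _ hs
    obtain ⟨j0, hj0⟩ : ∃ j, j ∉ s := by
      by_contra h
      push Not at h
      exact hs (Finset.eq_univ_iff_forall.2 h)
    have hyM : ∀ j, y j ∈ ML := fun j => smul_ML (dk_ML i) _
    by_cases hx0 : x j0 ∈ ML
    · refine T.map_coord_zero j0 ?_
      rw [Finset.piecewise_eq_of_notMem _ _ _ hj0]
      change om (dk (ix i)) (x j0) • dk (ix i) = 0
      rw [om_ML (dk_ML i) hx0, zero_smul]
    · refine hT _ ?_
      have h1 : insert j0 (univ.filter fun j => x j ∈ ML) ⊆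
          univ.filter fun j => s.piecewise x y j ∈ ML := by
        intro j hj
        rw [Finset.mem_filter]
        refine ⟨Finset.mem_univ _, ?_⟩
        by_cases hjs : j ∈ s
        · rw [Finset.piecewise_eq_of_mem _ _ _ hjs]
          rcases Finset.mem_insert.1 hj with rfl | h
          · exact absurd hjs hj0
          · exact (Finset.mem_filter.1 h).2
        · rw [Finset.piecewise_eq_of_notMem _ _ _ hjs]
          exact hyM j
      have h2 := Finset.card_le_card h1
      have h3 : j0 ∉ univ.filter fun j => x j ∈ ML := fun h => hx0 (Finset.mem_filter.1 h).2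
      rw [Finset.card_insert_of_notMem h3] at h2
      exact (Nat.succ_le_succ hx).trans h2
  change (T.compContinuousLinearMap (fun _ => sH (ix i))) x - T x = 0
  rw [hxy, hexp, hsplit, sub_self]

theorem kill_add {T T' : MT} {m : ℕ} (hT : Kill T m) (hT' : Kill T' m) : Kill (T + T') m :=
  fun x hx => by
    change T x + T' x = 0
    rw [hT x hx, hT' x hx, add_zero]

theorem kill_neg {T : MT} {m : ℕ} (hT : Kill T m) : Kill (-T) m :=
  fun x hx => by
    change -(T x) = 0
    rw [hT x hx, neg_zero]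

end

end Vale.Agent.P273.H422
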